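import Vale.Agent.Lib.P113.Statement
import Vale.Agent.Lib.P113.Itinerary

open scoped ContDiff

namespace Vale.Agent.Results.P113.ExplicitFlow

open Vale.Agent.P113

/-- Affirmative answer to Q1 of P113 by an explicit force: a computable sequence of shears given
by finite rational data, eight of them repeated periodically and dependent on the machine only,
preceded by two spatially constant ones that load the input. The particle visits, at integer
times, cells that tell the state and the scanned symbol of the successive configurations. -/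
theorem result :
    ∃ (a : V3) (O : Set (UnitAddTorus (Fin 3))) (sh : Desc × List ℕ → ℕ → ShearData),
      IsOpen O ∧ Computable₂ sh ∧ (∀ p m, ShearOK (sh p m)) ∧
      (∀ p, ∃ r s : RatCode, sh p 0 = (0, [(r, none, none, none)]) ∧
        sh p 1 = (1, [(s, none, none, none)])) ∧
      (∀ D w w' m, 2 ≤ m → sh (D, w) m = sh (D, w') m) ∧
      (∀ p m, 2 ≤ m → sh p (m + 8) = sh p m) ∧
      (∀ ν : ℝ, 0 < ν → ComputableReal ν → ∃ compile : Desc × List ℕ → Nat.Partrec.Code,
        IsForceCompiler 2 8 compile fun M w => force ν (sh (M.describe, w.map Fin.val))) ∧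
      ∀ M : Machine, ∃ cell : Fin (M.n + 1) → Fin (M.m + 1) → Set (UnitAddTorus (Fin 3)),
        (∀ q s, IsOpen (cell q s)) ∧
        (∀ q s q' s', (q, s) ≠ (q', s') → Disjoint (cell q s) (cell q' s')) ∧
        ∀ w : List (Fin (M.m + 1)),
          (∀ ν : ℝ, 0 < ν → IsGlobalSolution ν (force ν (sh (M.describe, w.map Fin.val)))
            (velocity (sh (M.describe, w.map Fin.val))) fun _ _ => 0) ∧
          ∃ (X : ℝ → V3) (N : ℕ → ℕ),
            IsTrajectory (velocity (sh (M.describe, w.map Fin.val))) a X ∧
            (∀ Y, IsTrajectory (velocity (sh (M.describe, w.map Fin.val))) a Y →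
              ∀ t, 0 ≤ t → Y t = X t) ∧
            ((∃ t : ℝ, 0 ≤ t ∧ toTorus (X t) ∈ O) ↔ M.Halts w) ∧
            (∀ t : ℝ, 0 ≤ t → t ≤ 2 → toTorus (X t) ∉ O) ∧
            N 0 = 0 ∧ StrictMono N ∧
            ∀ k, (∀ j < k, M.halting (M.step^[j] (M.init w)).state = false) →
              toTorus (X (2 + 8 * (N k : ℝ))) ∈ cell (M.step^[k] (M.init w)).state
                ((M.step^[k] (M.init w)).tape (M.step^[k] (M.init w)).pos) := by
  refine ⟨aStar, region, shears, region_open, computable_shears, shears_ok, ?_, ?_, ?_, ?_, ?_⟩
  · exact fun p => ⟨_, _, rfl, rfl⟩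
  · exact fun D w w' m hm => shearSeq_indep _ _ _ _ _ _ _ hm
  · exact fun p m hm => shearSeq_period _ _ _ _ _ hm
  · intro ν _ hcomp
    obtain ⟨compile, hc1, hc2⟩ := exists_compiler hcomp shears computable_shears shears_ok
    refine ⟨compile, hc1, fun M w => force_contDiff ν (shears_ok _),
      fun M w t => force_periodic ν _ t, fun M w => hc2 _, ?_, ?_⟩
    · intro M w t ht
      funext x
      exact force_period ν _ _ _ _ _ ht x
    · intro M w w' t ht
      exact force_indep ν _ _ _ _ _ _ _ ht
  · intro M
    refine ⟨cell M, cell_open M, fun q s q' s' h => cell_disjoint M h, ?_⟩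
    intro w
    have hok := shears_ok (M.describe, w.map Fin.val)
    refine ⟨?_, traj (shears (M.describe, w.map Fin.val)) aStar, Dis.visit M w,
      traj_isTrajectory hok aStar, ?_, shears_halting M w, ?_, rfl, Dis.visit_strictMono M w, ?_⟩
    · intro ν hν
      refine ⟨velocity_contDiff hok, contDiff_const,
        fun T _ => isClassicalSolution_velocity ν hok T, ?_⟩
      intro T hT v q hvq
      exact classical_unique hν hT (isClassicalSolution_velocity ν hok T) hvq
    · intro Y hY t ht
      exact trajectory_unique (velocity_contDiff hok) hY (traj_isTrajectory hok aStar) t ht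
    · intro t h0 h2
      exact not_mem_region (traj_load_height _ h0 h2)
    · intro k hk
      apply itinerary M w k
      intro j hj h
      rw [hk j hj] at h
      exact Bool.false_ne_true h

end Vale.Agent.Results.P113.ExplicitFlow
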