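import Vale.Agent.Lib.P113.Statement
import Vale.Agent.Lib.P113.Final

open scoped ContDiff

namespace Vale.Agent.Results.P113.HaltingFlow

open Vale.Agent.P113

/-- Affirmative answer to Q1 of P113, with one starting point, one detection region, one loading
time and one period for all viscosities, machines and inputs, with an input loading phase during
which the force is spatially uniform and proportional (componentwise) to a rational vector computed
from `(M, w)`, after which the fluid is at rest, and with detection only after the loading
phase. -/
theorem result :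
    ∃ (a : V3) (O : Set (UnitAddTorus (Fin 3))) (T₀ τ : ℝ) (η : ℝ → V3)
      (load : Desc × List ℕ → RatCode × RatCode × RatCode),
      IsOpen O ∧ 0 < T₀ ∧ 0 < τ ∧ Computable load ∧
      ∀ ν : ℝ, 0 < ν → ComputableReal ν →
        ∃ (compile : Desc × List ℕ → Nat.Partrec.Code)
          (f : (M : Machine) → List (Fin (M.m + 1)) → ℝ → V3 → V3),
          IsForceCompiler T₀ τ compile f ∧
          ∀ (M : Machine) (w : List (Fin (M.m + 1))),
            ∃ (u : ℝ → V3 → V3) (p : ℝ → V3 → ℝ) (X : ℝ → V3) (r : V3),
              IsGlobalSolution ν (f M w) u p ∧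
              IsTrajectory u a X ∧
              (∀ Y, IsTrajectory u a Y → ∀ t, 0 ≤ t → Y t = X t) ∧
              ((∃ t : ℝ, 0 ≤ t ∧ toTorus (X t) ∈ O) ↔ M.Halts w) ∧
              r = ![ratVal (load (M.describe, w.map Fin.val)).1,
                ratVal (load (M.describe, w.map Fin.val)).2.1,
                ratVal (load (M.describe, w.map Fin.val)).2.2] ∧
              (∀ t ≤ T₀, ∀ x, f M w t x = fun i => η t i * r i) ∧
              (∀ x, u T₀ x = 0) ∧ X T₀ = (fun i => a i + r i) ∧
              (∀ t : ℝ, 0 ≤ t → t ≤ T₀ → toTorus (X t) ∉ O) := by
  refine ⟨aStar, region, 2, 8, loadProfile, loadCode, region_open, by norm_num, by norm_num,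
    computable_loadCode, ?_⟩
  intro ν hν hcomp
  obtain ⟨compile, hc1, hc2⟩ := exists_compiler hcomp shears computable_shears shears_ok
  refine ⟨compile, fun M w => force ν (shears (M.describe, w.map Fin.val)), ?_, ?_⟩
  · refine ⟨hc1, fun M w => force_contDiff ν (shears_ok _), fun M w t => force_periodic ν _ t,
      fun M w => hc2 _, ?_, ?_⟩
    · intro M w t ht
      funext x
      exact force_period ν _ _ _ _ _ ht x
    · intro M w w' t ht
      exact force_indep ν _ _ _ _ _ _ _ ht
  · intro M w
    have hok := shears_ok (M.describe, w.map Fin.val)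
    refine ⟨velocity (shears (M.describe, w.map Fin.val)), fun _ _ => 0,
      traj (shears (M.describe, w.map Fin.val)) aStar,
      ![ratVal (encC (Dis.num M.describe) (Dis.ini (M.describe, w.map Fin.val)).1),
        ratVal (encC (Dis.num M.describe) (Dis.ini (M.describe, w.map Fin.val)).2), 0],
      ?_, traj_isTrajectory hok aStar, ?_, shears_halting M w, ?_, ?_, ?_, ?_, ?_⟩
    · refine ⟨velocity_contDiff hok, contDiff_const,
        fun T _ => isClassicalSolution_velocity ν hok T, ?_⟩
      intro T hT v q hvq
      exact classical_unique hν hT (isClassicalSolution_velocity ν hok T) hvq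
    · intro Y hY t ht
      exact trajectory_unique (velocity_contDiff hok) hY (traj_isTrajectory hok aStar) t ht
    · have h0 : ratVal (rNat 0) = 0 := by rw [ratVal_rNat]; simp
      simp only [loadCode, h0]
    · intro t ht x
      exact force_load ν _ _ _ _ _ ht x
    · intro x
      exact velocity_two _ _ _ _ _ x
    · exact traj_two _ _ _ _
    · intro t h0 h2
      exact not_mem_region (traj_load_height _ h0 h2)

end Vale.Agent.Results.P113.HaltingFlow
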